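import Vale.Agent.P319.Main

/-!
Deterministic polynomial time factorization of polynomials over prime fields.
-/

namespace Vale.Agent.Results.P319.AFactorPolyTime

open Polynomial Vale.Agent.P319.Stmt

/-- There are a deterministic Turing machine with finite alphabets and a constant `c` such that,
for every prime `p` and every nonzero polynomial `f` of degree `n` over the field with `p` elements,
the machine, given `p` and the `n + 1` coefficients of `f` in binary, halts within
`c ((n + 1) ⌈log₂ p⌉) ^ c` steps with the leading coefficient of `f` and the list of the distinct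
monic irreducible factors of `f` with their multiplicities. -/
theorem result :
    ∃ (M : Turing.TM2ComputableAux Bool Bool) (c : ℕ), (∀ k, Finite (M.tm.Γ k)) ∧
      ∀ p : ℕ, p.Prime → ∀ f : (ZMod p)[X], f ≠ 0 →
        ∃ L : List ((ZMod p)[X] × ℕ),
          f = C f.leadingCoeff * (L.map fun q => q.1 ^ q.2).prod ∧
          (∀ q ∈ L, q.1.Monic ∧ Irreducible q.1 ∧ 0 < q.2) ∧ (L.map Prod.fst).Nodup ∧
          Nonempty (Turing.TM2OutputsInTime M.tm ((codeInput p f).map M.inputAlphabet.symm)
            (some ((codeOutput f.leadingCoeff L).map M.outputAlphabet.symm))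
            (c * ((f.natDegree + 1) * Nat.clog 2 p) ^ c)) :=
  Vale.Agent.P319.goal

end Vale.Agent.Results.P319.AFactorPolyTime
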